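import Vale.Agent.P013.Bdl.B6

namespace Vale.Agent.Results.P013.Full

/-- Jacobsthal's function: the least positive `m` such that every set `{x + 1, …, x + m}` of `m`
consecutive integers contains an integer coprime to `n`. -/
noncomputable def jac (n : ℕ) : ℕ :=
  sInf {m : ℕ | 0 < m ∧ ∀ x : ℤ, ∃ t : ℤ, x < t ∧ t ≤ x + m ∧ Int.gcd t n = 1}

/-- `h k` is the supremum of `jac n` over the `n ≥ 1` with at most `k` distinct prime factors. -/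
noncomputable def h (k : ℕ) : ℕ :=
  sSup {m : ℕ | ∃ n : ℕ, 1 ≤ n ∧ n.primeFactors.card ≤ k ∧ m = jac n}

theorem jac_spec (n : ℕ) (hn : 1 ≤ n) :
    0 < jac n ∧ ∀ x : ℤ, ∃ t : ℤ, x < t ∧ t ≤ x + jac n ∧ Int.gcd t n = 1 := by
  have hne : {m : ℕ | 0 < m ∧ ∀ x : ℤ, ∃ t : ℤ, x < t ∧ t ≤ x + m ∧ Int.gcd t n = 1}.Nonempty := by
    refine ⟨n, hn, fun x => ?_⟩
    have hn' : (0 : ℤ) < n := by exact_mod_cast hn
    refine ⟨n * (x / n) + 1 + (if n * (x / n) + 1 ≤ x then (n : ℤ) else 0), ?_, ?_, ?_⟩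
    · have h1 := Int.lt_mul_ediv_self_add (x := x) hn'
      split_ifs with h2 <;> omega
    · have h1 := Int.mul_ediv_self_le (x := x) hn'.ne'
      split_ifs with h2 <;> omega
    · have h3 : ∃ c : ℤ, (n : ℤ) * (x / n) + 1 +
          (if (n : ℤ) * (x / n) + 1 ≤ x then (n : ℤ) else 0) = 1 + (n : ℤ) * c := by
        split_ifs with h2
        · exact ⟨x / n + 1, by ring⟩
        · exact ⟨x / n, by ring⟩
      obtain ⟨c, hc⟩ := h3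
      rw [hc, Int.gcd_comm]
      exact Int.isCoprime_iff_gcd_eq_one.1 ⟨-c, 1, by ring⟩
  exact Nat.sInf_mem hne

/-- Jacobsthal's conjecture `h(k) ≪ k ^ 2`, with a saving of an arbitrary power of `log k`. -/
theorem result :
    (∃ C : ℝ, 0 < C ∧ ∀ k : ℕ, 1 ≤ k → (h k : ℝ) ≤ C * (k : ℝ) ^ 2) ∧
    (∀ B : ℝ, 0 < B → ∃ C : ℝ, 0 < C ∧ ∀ k : ℕ, 2 ≤ k →
      (h k : ℝ) ≤ C * (k : ℝ) ^ 2 / (Real.log k) ^ B) ∧
    (∀ k n : ℕ, 1 ≤ n → n.primeFactors.card ≤ k → jac n ≤ h k) ∧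
    (∀ n : ℕ, 1 ≤ n →
      0 < jac n ∧ ∀ x : ℤ, ∃ t : ℤ, x < t ∧ t ≤ x + jac n ∧ Int.gcd t n = 1) :=
  ⟨(Vale.Agent.P013.J.jacobsthal_conj Vale.Agent.P013.J.tstar_full).1,
    (Vale.Agent.P013.J.jacobsthal_conj Vale.Agent.P013.J.tstar_full).2.1,
    (Vale.Agent.P013.J.jacobsthal_conj Vale.Agent.P013.J.tstar_full).2.2.2,
    jac_spec⟩

end Vale.Agent.Results.P013.Full
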